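import Vale.Agent.P260.Chart
import Mathlib.Topology.Homotopy.Basic

/-!
# P260: close maps into a compact manifold are homotopic
-/

set_option autoImplicit false
set_option linter.all false

namespace Vale.Agent.P260.R3.H815

open Metric Set Topology Filter

section Step

variable {E N : Type*} [NormedAddCommGroup E] [NormedSpace ℝ E] [MetricSpace N]

/-- the inverse of an open embedding is continuous on the range -/
theorem continuousAt_invFun {β : E → N} (hβ : IsOpenEmbedding β) {y : N} (hy : y ∈ range β) :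
    ContinuousAt (Function.invFun β) y := by
  obtain ⟨u, rfl⟩ := hy
  have h := Function.leftInverse_invFun hβ.injective
  rw [ContinuousAt, ← hβ.map_nhds_eq, tendsto_map'_iff]
  have h2 : Function.invFun β ∘ β = id := h.comp_eq_id
  rw [h2, h u]
  exact tendsto_id

theorem invFun_apply {β : E → N} (hβ : IsOpenEmbedding β) (u : E) :
    Function.invFun β (β u) = u := Function.leftInverse_invFun hβ.injective u

theorem apply_invFun {β : E → N} {y : N} (hy : y ∈ range β) :
    β (Function.invFun β y) = y := Function.invFun_eq hy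

/-- the segment from `b` to `a` in the chart `β` -/
noncomputable def seg (β : E → N) (b a : N) (t : ℝ) : N :=
  β (Function.invFun β b + t • (Function.invFun β a - Function.invFun β b))

theorem seg_zero {β : E → N} {b : N} (hb : b ∈ range β) (a : N) : seg β b a 0 = b := by
  simp [seg, apply_invFun hb]

theorem seg_one {β : E → N} {a : N} (ha : a ∈ range β) (b : N) : seg β b a 1 = a := by
  simp [seg, apply_invFun ha]

theorem seg_self {β : E → N} {a : N} (ha : a ∈ range β) (t : ℝ) : seg β a a t = a := by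
  simp [seg, apply_invFun ha]

theorem continuousAt_seg {β : E → N} (hβ : IsOpenEmbedding β) {p : N × N × ℝ}
    (h1 : p.1 ∈ range β) (h2 : p.2.1 ∈ range β) :
    ContinuousAt (fun p : N × N × ℝ => seg β p.1 p.2.1 p.2.2) p := by
  have e1 : ContinuousAt (fun p : N × N × ℝ => Function.invFun β p.1) p :=
    (continuousAt_invFun hβ h1).comp continuousAt_fst
  have e2 : ContinuousAt (fun p : N × N × ℝ => Function.invFun β p.2.1) p :=
    ContinuousAt.comp (g := Function.invFun β) (f := fun p : N × N × ℝ => p.2.1)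
      (continuousAt_invFun hβ h2) (by fun_prop)
  have e3 : ContinuousAt (fun p : N × N × ℝ => Function.invFun β p.1 +
      p.2.2 • (Function.invFun β p.2.1 - Function.invFun β p.1)) p :=
    e1.add (ContinuousAt.smul (by fun_prop) (e2.sub e1))
  exact ContinuousAt.comp (g := β) hβ.continuous.continuousAt e3

/-- short segments stay near their end -/
theorem exists_delta {β : E → N} (hβ : IsOpenEmbedding β) {K : Set N} (hK : IsCompact K)
    (hKr : K ⊆ range β) {ε : ℝ} (hε : 0 < ε) :
    ∃ δ > 0, ∀ a ∈ K, ∀ b, dist b a < δ → b ∈ range β ∧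
      ∀ t ∈ Icc (0 : ℝ) 1, dist (seg β b a t) a < ε := by
  let W : Set (N × N × ℝ) := {p | p.1 ∈ range β ∧ p.2.1 ∈ range β ∧
    dist (seg β p.1 p.2.1 p.2.2) p.2.1 < ε}
  have hW : IsOpen W := by
    rw [isOpen_iff_mem_nhds]
    rintro p ⟨h1, h2, h3⟩
    have c1 : ∀ᶠ q : N × N × ℝ in 𝓝 p, q.1 ∈ range β :=
      continuousAt_fst.eventually (hβ.isOpen_range.mem_nhds h1)
    have c2 : ∀ᶠ q : N × N × ℝ in 𝓝 p, q.2.1 ∈ range β :=
      (by fun_prop : ContinuousAt (fun q : N × N × ℝ => q.2.1) p).eventually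
        (hβ.isOpen_range.mem_nhds h2)
    have c3 : ∀ᶠ q : N × N × ℝ in 𝓝 p, dist (seg β q.1 q.2.1 q.2.2) q.2.1 < ε :=
      (Filter.Tendsto.dist (continuousAt_seg hβ h1 h2)
        (by fun_prop : ContinuousAt (fun q : N × N × ℝ => q.2.1) p)).eventually
        (gt_mem_nhds h3)
    filter_upwards [c1, c2, c3] with q q1 q2 q3 using ⟨q1, q2, q3⟩
  let L : Set (N × N × ℝ) := (fun q : N × ℝ => (q.1, q.1, q.2)) '' (K ×ˢ Icc (0 : ℝ) 1)
  have hL : IsCompact L := (hK.prod isCompact_Icc).image (by fun_prop)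
  have hLW : L ⊆ W := by
    rintro _ ⟨⟨a, t⟩, ⟨ha, -⟩, rfl⟩
    refine ⟨hKr ha, hKr ha, ?_⟩
    simp only [seg_self (hKr ha), dist_self]
    exact hε
  obtain ⟨δ, hδ, h⟩ := hL.exists_thickening_subset_open hW hLW
  have key : ∀ a ∈ K, ∀ b, dist b a < δ → ∀ t ∈ Icc (0 : ℝ) 1, ((b, a, t) : N × N × ℝ) ∈ W := by
    intro a ha b hb t ht
    refine h (mem_thickening_iff.2 ⟨(a, a, t), ⟨(a, t), ⟨ha, ht⟩, rfl⟩, ?_⟩)
    rw [Prod.dist_eq, Prod.dist_eq]
    simp [hb, hδ]
  refine ⟨δ, hδ, fun a ha b hb => ⟨(key a ha b hb 0 (by simp)).1, fun t ht =>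
    (key a ha b hb t ht).2.2⟩⟩

/-- the cut-off function -/
noncomputable def cut (u : E) : ℝ := max 0 (min 1 (2 - ‖u‖))

theorem continuous_cut : Continuous (cut : E → ℝ) := by
  unfold cut; fun_prop

theorem cut_mem (u : E) : cut u ∈ Icc (0 : ℝ) 1 := by
  unfold cut
  exact ⟨le_max_left _ _, max_le zero_le_one (min_le_left _ _)⟩

theorem cut_one {u : E} (h : ‖u‖ ≤ 1) : cut u = 1 := by
  unfold cut
  rw [min_eq_left (by linarith), max_eq_right zero_le_one]

theorem cut_zero {u : E} (h : 2 ≤ ‖u‖) : cut u = 0 := by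
  unfold cut
  rw [max_eq_left]
  exact (min_le_right _ _).trans (by linarith)

/-- one chart -/
theorem step [ProperSpace E] {β : E → N} (hβ : IsOpenEmbedding β) {ε : ℝ} (hε : 0 < ε) :
    ∃ δ > 0, ∀ (X : Type*) [TopologicalSpace X] (f g : C(X, N)),
      (∀ x, dist (f x) (g x) < δ) → ∃ f' : C(X, N), f.Homotopic f' ∧
        (∀ x, dist (f' x) (g x) < ε) ∧ (∀ x, g x ∈ β '' closedBall 0 1 → f' x = g x) ∧
        ∀ x, f x = g x → f' x = g x := by
  classical
  have hK : IsCompact (β '' closedBall 0 3) := (isCompact_closedBall 0 3).image hβ.continuous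
  obtain ⟨δ, hδ, h⟩ := exists_delta hβ hK (image_subset_range _ _) hε
  refine ⟨min δ ε, lt_min hδ hε, fun X _ f g hfg => ?_⟩
  let T : X → ℝ := fun x => cut (Function.invFun β (g x))
  let H : ℝ × X → N := fun q => if g q.2 ∈ β '' ball 0 3 then seg β (f q.2) (g q.2) (q.1 * T q.2)
    else f q.2
  have hsub : β '' ball 0 3 ⊆ β '' closedBall 0 3 := image_mono ball_subset_closedBall
  have hfr : ∀ x, g x ∈ β '' ball 0 3 → f x ∈ range β := fun x hx =>
    (h _ (hsub hx) _ ((hfg x).trans_le (min_le_left _ _))).1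
  have hopen3 : IsOpen (β '' ball (0 : E) 3) := hβ.isOpenMap _ isOpen_ball
  have hcl2 : IsClosed (β '' closedBall (0 : E) 2) :=
    ((isCompact_closedBall 0 2).image hβ.continuous).isClosed
  have hH1 : ∀ q : ℝ × X, g q.2 ∉ β '' closedBall 0 2 → H q = f q.2 := by
    intro q hq
    by_cases h3 : g q.2 ∈ β '' ball 0 3
    · have hT : T q.2 = 0 := by
        obtain ⟨u, hu, hug⟩ := h3
        refine cut_zero ?_
        rw [← hug, invFun_apply hβ]
        by_contra hlt
        push Not at hlt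
        exact hq ⟨u, by simpa using hlt.le, hug⟩
      simp only [H, if_pos h3, hT, mul_zero]
      exact seg_zero (hfr _ h3) _
    · simp only [H, if_neg h3]
  have hH : Continuous H := by
    rw [continuous_iff_continuousAt]
    intro q
    by_cases h2 : g q.2 ∈ β '' closedBall 0 2
    · have h3 : g q.2 ∈ β '' ball 0 3 := by
        obtain ⟨u, hu, hug⟩ := h2
        exact ⟨u, closedBall_subset_ball (by norm_num) hu, hug⟩
      have hev : ∀ᶠ p : ℝ × X in 𝓝 q, g p.2 ∈ β '' ball 0 3 :=
        (by fun_prop : ContinuousAt (fun p : ℝ × X => g p.2) q).eventually (hopen3.mem_nhds h3)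
      have hc : ContinuousAt (fun p : ℝ × X => seg β (f p.2) (g p.2) (p.1 * T p.2)) q := by
        have hg : ContinuousAt (fun p : ℝ × X => Function.invFun β (g p.2)) q :=
          ContinuousAt.comp (g := Function.invFun β) (f := fun p : ℝ × X => g p.2)
            (continuousAt_invFun hβ (image_subset_range _ _ h3)) (by fun_prop)
        have hTc : ContinuousAt (fun p : ℝ × X => T p.2) q :=
          ContinuousAt.comp (g := (cut : E → ℝ)) (f := fun p : ℝ × X => Function.invFun β (g p.2))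
            continuous_cut.continuousAt hg
        have hin : ContinuousAt (fun p : ℝ × X => ((f p.2, g p.2, p.1 * T p.2) : N × N × ℝ)) q :=
          ContinuousAt.prodMk (by fun_prop) (ContinuousAt.prodMk (by fun_prop)
            (ContinuousAt.mul (by fun_prop) hTc))
        exact ContinuousAt.comp (g := fun p : N × N × ℝ => seg β p.1 p.2.1 p.2.2)
          (f := fun p : ℝ × X => ((f p.2, g p.2, p.1 * T p.2) : N × N × ℝ))
          (continuousAt_seg hβ (hfr _ h3) (image_subset_range _ _ h3)) hin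
      refine hc.congr ?_
      filter_upwards [hev] with p hp
      simp only [H, if_pos hp]
    · have hev : ∀ᶠ p : ℝ × X in 𝓝 q, g p.2 ∉ β '' closedBall 0 2 :=
        (by fun_prop : ContinuousAt (fun p : ℝ × X => g p.2) q).eventually
          (hcl2.isOpen_compl.mem_nhds h2)
      refine (by fun_prop : ContinuousAt (fun p : ℝ × X => f p.2) q).congr ?_
      filter_upwards [hev] with p hp
      exact (hH1 p hp).symm
  have hH0 : ∀ x, H (0, x) = f x := by
    intro x
    by_cases h3 : g x ∈ β '' ball 0 3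
    · simp only [H, if_pos h3, zero_mul]
      exact seg_zero (hfr _ h3) _
    · simp only [H, if_neg h3]
  let f' : C(X, N) := ⟨fun x => H (1, x), hH.comp (by fun_prop)⟩
  refine ⟨f', ⟨⟨⟨fun q => H (q.1, q.2), hH.comp (by fun_prop)⟩, ?_, ?_⟩⟩, ?_, ?_, ?_⟩
  · intro x
    simpa using hH0 x
  · intro x
    simp [f']
  · intro x
    show dist (H (1, x)) (g x) < ε
    by_cases h3 : g x ∈ β '' ball 0 3
    · simp only [H, if_pos h3, one_mul]
      exact (h _ (hsub h3) _ ((hfg x).trans_le (min_le_left _ _))).2 _ (cut_mem _)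
    · simp only [H, if_neg h3]
      exact (hfg x).trans_le (min_le_right _ _)
  · intro x hx
    show H (1, x) = g x
    have h3 : g x ∈ β '' ball 0 3 := by
      obtain ⟨u, hu, hug⟩ := hx
      exact ⟨u, closedBall_subset_ball (by norm_num) hu, hug⟩
    have hT : T x = 1 := by
      obtain ⟨u, hu, hug⟩ := hx
      refine cut_one ?_
      rw [← hug, invFun_apply hβ]
      simpa using hu
    simp only [H, if_pos h3, hT, mul_one]
    exact seg_one (image_subset_range _ _ h3) _
  · intro x hx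
    show H (1, x) = g x
    by_cases h3 : g x ∈ β '' ball 0 3
    · simp only [H, if_pos h3, hx]
      exact seg_self (image_subset_range _ _ h3) _
    · simp only [H, if_neg h3]
      exact hx

/-- finitely many charts -/
theorem steps [ProperSpace E] (l : List (E → N)) (hl : ∀ β ∈ l, IsOpenEmbedding β) {ε : ℝ}
    (hε : 0 < ε) :
    ∃ δ > 0, ∀ (X : Type*) [TopologicalSpace X] (f g : C(X, N)),
      (∀ x, dist (f x) (g x) < δ) → ∃ f' : C(X, N), f.Homotopic f' ∧
        (∀ x, dist (f' x) (g x) < ε) ∧ (∀ x, (∃ β ∈ l, g x ∈ β '' closedBall 0 1) → f' x = g x) ∧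
        ∀ x, f x = g x → f' x = g x := by
  induction l generalizing ε with
  | nil =>
    exact ⟨ε, hε, fun X _ f g hfg => ⟨f, ContinuousMap.Homotopic.refl f, hfg, by simp,
      fun x hx => hx⟩⟩
  | cons β l ih =>
    obtain ⟨δ1, hδ1, h1⟩ := step (hl β (by simp)) hε
    obtain ⟨δ2, hδ2, h2⟩ := ih (fun γ hγ => hl γ (by simp [hγ])) hδ1
    refine ⟨δ2, hδ2, fun X _ f g hfg => ?_⟩
    obtain ⟨f1, a1, a2, a3, a4⟩ := h2 X f g hfg
    obtain ⟨f2, b1, b2, b3, b4⟩ := h1 X f1 g a2
    refine ⟨f2, a1.trans b1, b2, ?_, fun x hx => b4 x (a4 x hx)⟩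
    rintro x ⟨γ, hγ, hx⟩
    rcases List.mem_cons.1 hγ with rfl | hγ'
    · exact b3 x hx
    · exact b4 x (a3 x ⟨γ, hγ', hx⟩)

end Step

/-- Close maps into a compact manifold are homotopic: there is `η > 0` such that for every space
`X` and all continuous `f f₂ : X → N` with `dist (f x) (f₂ x) < η` for all `x`, the maps are
homotopic. -/
theorem close_homotopic {n : ℕ} {N : Type*} [MetricSpace N] [CompactSpace N]
    [ChartedSpace (EuclideanSpace ℝ (Fin n)) N] :
    ∃ η > 0, ∀ (X : Type*) [TopologicalSpace X] (f f₂ : C(X, N)),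
      (∀ x, dist (f x) (f₂ x) < η) → f.Homotopic f₂ := by
  choose β hβ h0 using fun y : N =>
    (let ⟨β, h1, h2, _⟩ := exists_chart (n := n) y Filter.univ_mem
     (⟨β, h1, h2⟩ : ∃ β : (Fin n → ℝ) → N, IsOpenEmbedding β ∧ β 0 = y))
  obtain ⟨t, -, ht⟩ := isCompact_univ.elim_nhds_subcover (fun y : N => β y '' ball 0 1)
    (fun y _ => ((hβ y).isOpenMap _ isOpen_ball).mem_nhds ⟨0, by simp, h0 y⟩)
  obtain ⟨δ, hδ, h⟩ := steps (t.toList.map β) (by
    intro γ hγ
    obtain ⟨y, -, rfl⟩ := List.mem_map.1 hγ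
    exact hβ y) one_pos
  refine ⟨δ, hδ, fun X _ f f₂ hf => ?_⟩
  obtain ⟨f', h1, -, h3, -⟩ := h X f f₂ hf
  have : f' = f₂ := by
    ext x
    refine h3 x ?_
    obtain ⟨y, hy, hx⟩ := mem_iUnion₂.1 (ht (mem_univ (f₂ x)))
    exact ⟨β y, List.mem_map.2 ⟨y, Finset.mem_toList.2 hy, rfl⟩,
      image_mono ball_subset_closedBall hx⟩
  rwa [this] at h1

end Vale.Agent.P260.R3.H815
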